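import Vale.Agent.Lib.P355.TR.Code

namespace Vale.Agent.Lib.P355.TR

/-- The code of `zeta^k`, `k < 12`. -/
def rootCode (k : Nat) : Nat :=
  match k with
  | 0 => 532612
  | 1 => 536770
  | 2 => 794755
  | 3 => 540802
  | 4 => 794753
  | 5 => 536642
  | 6 => 532608
  | 7 => 528450
  | 8 => 270465
  | 9 => 524418
  | 10 => 270467
  | 11 => 528578
  | _ => 0

/-- `2 cos (pi k / 6) = cA k + cB k * sqrt 3`. -/
def cA (k : Nat) : Int :=
  match k with
  | 0 => 2 | 2 => 1 | 4 => -1 | 6 => -2 | 8 => -1 | 10 => 1 | _ => 0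

def cB (k : Nat) : Int :=
  match k with
  | 1 => 1 | 5 => -1 | 7 => -1 | 11 => 1 | _ => 0

/-- `2 sin (pi k / 6) = cC k + cD k * sqrt 3`. -/
def cC (k : Nat) : Int :=
  match k with
  | 1 => 1 | 3 => 2 | 5 => 1 | 7 => -1 | 9 => -2 | 11 => -1 | _ => 0

def cD (k : Nat) : Int :=
  match k with
  | 2 => 1 | 4 => 1 | 8 => -1 | 10 => -1 | _ => 0

/-- The twelve codes of the elements of squared modulus six. -/
def unb12 : List Nat :=
  [3445449, 2945737, 2921289, 3470153, 2671244, 3719820, 2671500, 3720076, 2921167, 3470031,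
   3445583, 2945871]

theorem rootCode_coords : ∀ k, k < 12 →
    (rootCode k : Int) = (cA k + 2) + 64 * (cB k + 2) + 4096 * (cC k + 2) + 262144 * (cD k + 2) := by
  decide

theorem coords_bounds : ∀ k, k < 12 →
    (-2 ≤ cA k ∧ cA k ≤ 2) ∧ (-2 ≤ cB k ∧ cB k ≤ 2) ∧ (-2 ≤ cC k ∧ cC k ≤ 2) ∧
      (-2 ≤ cD k ∧ cD k ≤ 2) := by
  decide

theorem rootOf_eq : ∀ k, k < 12 → rootOf k = rootCode k := by decide +kernel

theorem pairOf_eq : ∀ e, e < 32 → ∀ e', e' < 32 →
    pairOf (e + 32 * e') = rootCode (e % 12) + rootCode (e' % 12) := by decide +kernel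

theorem unbLane_mem : ∀ r, r < 23 → unbLane r ∈ unb12 := by decide +kernel

theorem isUnbCode_of_mem : ∀ c ∈ unb12, isUnbCode c = true := by decide +kernel

theorem mem_of_isUnbCode (c : Nat) (h : isUnbCode c = true) : c ∈ unb12 := by
  unfold isUnbCode at h
  have h1 : unbLane (c % 23) = c := Nat.eq_of_beq_eq_true h
  have h2 := unbLane_mem (c % 23) (Nat.mod_lt _ (by decide))
  rw [h1] at h2
  exact h2

theorem isUnbCode_iff (c : Nat) : isUnbCode c = true ↔ c ∈ unb12 :=
  ⟨mem_of_isUnbCode c, isUnbCode_of_mem c⟩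

theorem isZeroCode_iff (c : Nat) : isZeroCode c = true ↔ c = 3195660 := by
  unfold isZeroCode
  constructor
  · intro h
    exact Nat.eq_of_beq_eq_true h
  · intro h
    rw [h]
    decide

theorem relK_eq (kx y : Nat) : relK kx y =
    pairOf ((y + kx) % 1024) + pairOf ((y + kx) / 1024 % 1024) + pairOf ((y + kx) / 1048576) :=
  rfl

theorem kof_eq (x : Nat) : kof x = 415641996 - x := rfl

theorem codeOf_eq (x1 x2 x3 x4 x5 : Nat) :
    codeOf x1 x2 x3 x4 x5 = 32 * x1 + (1024 * x2 + (32768 * x3 + (1048576 * x4 + 33554432 * x5))) :=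
  rfl

theorem unbK_self (c : Nat) (hc : c ≤ 415641996) : unbK (kof c) c = false := by
  unfold unbK
  rw [relK_eq, kof_eq]
  have h : c + (415641996 - c) = 415641996 := by omega
  rw [h]
  decide +kernel

theorem mem_r12 : ∀ k, k < 12 → k ∈ r12 := by decide

theorem sortedB_eq (c : Nat) : sortedB c =
    (Nat.ble (c / 32 % 32) (c / 1024 % 32) && (Nat.ble (c / 1024 % 32) (c / 32768 % 32) &&
      (Nat.ble (c / 32768 % 32) (c / 1048576 % 32) && Nat.ble (c / 1048576 % 32) (c / 33554432)))) :=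
  rfl

end Vale.Agent.Lib.P355.TR
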