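import Mathlib
import Vale.Agent.Lib.P355.TR.Tables

namespace Vale.Agent.Lib.P355.TR

/-- The complex number `((a + b sqrt 3) + (c + d sqrt 3) i) / 2`. -/
noncomputable def el (a b c d : ℤ) : ℂ :=
  ⟨((a : ℝ) + b * Real.sqrt 3) / 2, ((c : ℝ) + d * Real.sqrt 3) / 2⟩

/-- The primitive twelfth root of unity `(sqrt 3 + i) / 2`. -/
noncomputable def zeta : ℂ := ⟨Real.sqrt 3 / 2, 1 / 2⟩

theorem sqrt3_sq : Real.sqrt 3 * Real.sqrt 3 = 3 := Real.mul_self_sqrt (by norm_num)

theorem int_sqrt3 (p q : ℤ) (h : (p : ℝ) + q * Real.sqrt 3 = 0) : p = 0 ∧ q = 0 := by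
  have hirr : Irrational (Real.sqrt 3) := by
    have := Nat.Prime.irrational_sqrt Nat.prime_three
    simpa using this
  by_cases hq : q = 0
  · subst hq
    simp at h
    exact ⟨h, rfl⟩
  · exfalso
    apply hirr
    refine ⟨(-p / q : ℚ), ?_⟩
    have hq' : (q : ℝ) ≠ 0 := by exact_mod_cast hq
    push_cast
    field_simp
    linarith

theorem el_add (a b c d a' b' c' d' : ℤ) :
    el a b c d + el a' b' c' d' = el (a + a') (b + b') (c + c') (d + d') := by
  apply Complex.ext
  · simp only [el, Complex.add_re]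
    push_cast
    ring
  · simp only [el, Complex.add_im]
    push_cast
    ring

theorem el_zero : el 0 0 0 0 = 0 := by
  apply Complex.ext <;> simp [el]

theorem el_sum {ι : Type*} (s : Finset ι) (f g h k : ι → ℤ) :
    ∑ j ∈ s, el (f j) (g j) (h j) (k j) =
      el (∑ j ∈ s, f j) (∑ j ∈ s, g j) (∑ j ∈ s, h j) (∑ j ∈ s, k j) := by
  classical
  induction s using Finset.induction_on with
  | empty => simp [el_zero]
  | insert a s ha ih =>
    rw [Finset.sum_insert ha, Finset.sum_insert ha, Finset.sum_insert ha, Finset.sum_insert ha,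
      Finset.sum_insert ha, ih, el_add]

theorem el_eq_zero (a b c d : ℤ) (h : el a b c d = 0) : a = 0 ∧ b = 0 ∧ c = 0 ∧ d = 0 := by
  have hre : ((a : ℝ) + b * Real.sqrt 3) / 2 = 0 := by
    have := congrArg Complex.re h
    simpa [el] using this
  have him : ((c : ℝ) + d * Real.sqrt 3) / 2 = 0 := by
    have := congrArg Complex.im h
    simpa [el] using this
  have h1 := int_sqrt3 a b (by linarith)
  have h2 := int_sqrt3 c d (by linarith)
  exact ⟨h1.1, h1.2, h2.1, h2.2⟩

theorem el_normSq (a b c d : ℤ) (h : Complex.normSq (el a b c d) = 6) :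
    a * a + 3 * (b * b) + c * c + 3 * (d * d) = 24 ∧ a * b + c * d = 0 := by
  rw [Complex.normSq_apply] at h
  simp only [el] at h
  have key : (((a * a + 3 * (b * b) + c * c + 3 * (d * d) - 24 : ℤ) : ℝ))
      + ((2 * (a * b + c * d) : ℤ) : ℝ) * Real.sqrt 3 = 0 := by
    push_cast
    nlinarith [sqrt3_sq]
  have h1 := int_sqrt3 _ _ key
  constructor
  · omega
  · omega

theorem el_mul_zeta (a b c d a' b' c' d' : ℤ) (h1 : 2 * a' = 3 * b - c) (h2 : 2 * b' = a - d)
    (h3 : 2 * c' = a + 3 * d) (h4 : 2 * d' = b + c) : el a b c d * zeta = el a' b' c' d' := by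
  have h1' : (2 : ℝ) * a' = 3 * b - c := by exact_mod_cast h1
  have h2' : (2 : ℝ) * b' = a - d := by exact_mod_cast h2
  have h3' : (2 : ℝ) * c' = a + 3 * d := by exact_mod_cast h3
  have h4' : (2 : ℝ) * d' = b + c := by exact_mod_cast h4
  apply Complex.ext
  · simp only [el, zeta, Complex.mul_re]
    linear_combination ((b : ℝ) / 4) * sqrt3_sq - (1 / 4 : ℝ) * h1' - (Real.sqrt 3 / 4) * h2'
  · simp only [el, zeta, Complex.mul_im]
    linear_combination ((d : ℝ) / 4) * sqrt3_sq - (1 / 4 : ℝ) * h3' - (Real.sqrt 3 / 4) * h4'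

theorem zeta_pow_table : ∀ k, k < 12 → zeta ^ k = el (cA k) (cB k) (cC k) (cD k) := by
  have h0 : zeta ^ 0 = el (cA 0) (cB 0) (cC 0) (cD 0) := by
    apply Complex.ext <;> simp [el, cA, cB, cC, cD]
  have key : ∀ k, k < 11 → 2 * cA (k + 1) = 3 * cB k - cC k ∧ 2 * cB (k + 1) = cA k - cD k ∧
      2 * cC (k + 1) = cA k + 3 * cD k ∧ 2 * cD (k + 1) = cB k + cC k := by decide
  intro k hk
  induction k with
  | zero => exact h0
  | succ n ih =>
    rw [pow_succ, ih (by omega)]
    obtain ⟨e1, e2, e3, e4⟩ := key n (by omega)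
    exact el_mul_zeta _ _ _ _ _ _ _ _ e1 e2 e3 e4

theorem zeta_pow_twelve : zeta ^ 12 = 1 := by
  have h : zeta ^ 12 = zeta ^ 11 * zeta := pow_succ zeta 11
  rw [h, zeta_pow_table 11 (by norm_num)]
  have e : el (cA 11) (cB 11) (cC 11) (cD 11) * zeta = el 2 0 0 0 :=
    el_mul_zeta _ _ _ _ _ _ _ _ (by decide) (by decide) (by decide) (by decide)
  rw [e]
  apply Complex.ext <;> simp [el]

theorem normSq_zeta : Complex.normSq zeta = 1 := by
  rw [Complex.normSq_apply]
  simp only [zeta]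
  nlinarith [sqrt3_sq]

theorem zeta_primitive : IsPrimitiveRoot zeta 12 := by
  refine IsPrimitiveRoot.mk_of_lt zeta (by norm_num) zeta_pow_twelve ?_
  intro l hl0 hl12 h
  rw [zeta_pow_table l hl12] at h
  have h2 : el (cA l - 2) (cB l) (cC l) (cD l) = 0 := by
    have e := el_add (cA l - 2) (cB l) (cC l) (cD l) 2 0 0 0
    simp only [sub_add_cancel, add_zero] at e
    have h3 : el 2 0 0 0 = (1 : ℂ) := by
      apply Complex.ext <;> simp [el]
    rw [h, h3] at e
    exact add_eq_right.mp e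
  have h3 := el_eq_zero _ _ _ _ h2
  have key : ∀ l, l < 12 → 0 < l → ¬ (cA l - 2 = 0 ∧ cB l = 0 ∧ cC l = 0 ∧ cD l = 0) := by decide
  exact key l hl12 hl0 h3

end Vale.Agent.Lib.P355.TR
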