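import Mathlib
import Vale.Agent.Lib.P355.TR.Ring

namespace Vale.Agent.Lib.P355.TR

/-- The character `a ↦ zeta ^ a` of `ZMod 12`. -/
noncomputable def chi (a : ZMod 12) : ℂ := zeta ^ a.val

/-- The Hermitian product of the vectors of twelfth roots of unity with exponent vectors
`x` and `y`. -/
noncomputable def Sx (x y : Fin 6 → ZMod 12) : ℂ := ∑ j, chi (y j - x j)

def Orth (x y : Fin 6 → ZMod 12) : Prop := Sx x y = 0

def Unb (x y : Fin 6 → ZMod 12) : Prop := Complex.normSq (Sx x y) = 6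

theorem chi_add (a b : ZMod 12) : chi (a + b) = chi a * chi b := by
  unfold chi
  rw [ZMod.val_add, ← pow_add, ← pow_eq_pow_mod _ zeta_pow_twelve]

theorem chi_zero : chi 0 = 1 := by
  unfold chi
  simp

theorem normSq_chi (a : ZMod 12) : Complex.normSq (chi a) = 1 := by
  unfold chi
  rw [map_pow, normSq_zeta, one_pow]

theorem chi_el (a : ZMod 12) : chi a = el (cA a.val) (cB a.val) (cC a.val) (cD a.val) :=
  zeta_pow_table a.val (ZMod.val_lt a)

theorem Sx_el (x y : Fin 6 → ZMod 12) :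
    Sx x y = el (∑ j, cA (y j - x j).val) (∑ j, cB (y j - x j).val) (∑ j, cC (y j - x j).val)
      (∑ j, cD (y j - x j).val) := by
  unfold Sx
  rw [← el_sum]
  exact Finset.sum_congr rfl fun j _ => chi_el _

/-- The code of an exponent vector. -/
def enc6 (x0 x1 x2 x3 x4 x5 : ℕ) : ℕ :=
  x0 + 32 * x1 + 1024 * x2 + 32768 * x3 + 1048576 * x4 + 33554432 * x5

def encV (x : Fin 6 → ZMod 12) : ℕ :=
  enc6 (x 0).val (x 1).val (x 2).val (x 3).val (x 4).val (x 5).val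

theorem val_sub12 : ∀ a b : ZMod 12, (a - b).val = (a.val + 12 - b.val) % 12 := by
  decide

theorem relK_enc (x0 x1 x2 x3 x4 x5 y0 y1 y2 y3 y4 y5 : ℕ)
    (hx0 : x0 < 12) (hx1 : x1 < 12) (hx2 : x2 < 12) (hx3 : x3 < 12) (hx4 : x4 < 12) (hx5 : x5 < 12)
    (hy0 : y0 < 12) (hy1 : y1 < 12) (hy2 : y2 < 12) (hy3 : y3 < 12) (hy4 : y4 < 12) (hy5 : y5 < 12) :
    relK (kof (enc6 x0 x1 x2 x3 x4 x5)) (enc6 y0 y1 y2 y3 y4 y5) =
      rootCode ((y0 + 12 - x0) % 12) + rootCode ((y1 + 12 - x1) % 12) +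
      rootCode ((y2 + 12 - x2) % 12) + rootCode ((y3 + 12 - x3) % 12) +
      rootCode ((y4 + 12 - x4) % 12) + rootCode ((y5 + 12 - x5) % 12) := by
  rw [relK_eq, kof_eq]
  have e01 : (enc6 y0 y1 y2 y3 y4 y5 + (415641996 - enc6 x0 x1 x2 x3 x4 x5)) % 1024 =
      (y0 + 12 - x0) + 32 * (y1 + 12 - x1) := by
    unfold enc6
    omega
  have e23 : (enc6 y0 y1 y2 y3 y4 y5 + (415641996 - enc6 x0 x1 x2 x3 x4 x5)) / 1024 % 1024 =
      (y2 + 12 - x2) + 32 * (y3 + 12 - x3) := by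
    unfold enc6
    omega
  have e45 : (enc6 y0 y1 y2 y3 y4 y5 + (415641996 - enc6 x0 x1 x2 x3 x4 x5)) / 1048576 =
      (y4 + 12 - x4) + 32 * (y5 + 12 - x5) := by
    unfold enc6
    omega
  rw [e01, e23, e45, pairOf_eq _ (by omega) _ (by omega), pairOf_eq _ (by omega) _ (by omega),
    pairOf_eq _ (by omega) _ (by omega)]
  omega

theorem relK_encV (x y : Fin 6 → ZMod 12) :
    relK (kof (encV x)) (encV y) = ∑ j, rootCode (y j - x j).val := by
  unfold encV
  rw [relK_enc _ _ _ _ _ _ _ _ _ _ _ _ (ZMod.val_lt _) (ZMod.val_lt _) (ZMod.val_lt _)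
    (ZMod.val_lt _) (ZMod.val_lt _) (ZMod.val_lt _) (ZMod.val_lt _) (ZMod.val_lt _)
    (ZMod.val_lt _) (ZMod.val_lt _) (ZMod.val_lt _) (ZMod.val_lt _), Fin.sum_univ_six]
  simp only [val_sub12]

theorem code_coords (e : Fin 6 → ℕ) (he : ∀ j, e j < 12) :
    ((∑ j, rootCode (e j) : ℕ) : ℤ) = (∑ j, cA (e j) + 12) + 64 * (∑ j, cB (e j) + 12)
      + 4096 * (∑ j, cC (e j) + 12) + 262144 * (∑ j, cD (e j) + 12) := by
  simp only [Fin.sum_univ_six]
  push_cast
  have h0 := rootCode_coords (e 0) (he 0)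
  have h1 := rootCode_coords (e 1) (he 1)
  have h2 := rootCode_coords (e 2) (he 2)
  have h3 := rootCode_coords (e 3) (he 3)
  have h4 := rootCode_coords (e 4) (he 4)
  have h5 := rootCode_coords (e 5) (he 5)
  omega

theorem orth_code (x y : Fin 6 → ZMod 12) (h : Orth x y) :
    orthK (kof (encV x)) (encV y) = true := by
  unfold orthK
  rw [relK_encV, isZeroCode_iff]
  unfold Orth at h
  rw [Sx_el] at h
  obtain ⟨hA, hB, hC, hD⟩ := el_eq_zero _ _ _ _ h
  have hc := code_coords (fun j => (y j - x j).val) (fun j => ZMod.val_lt _)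
  rw [hA, hB, hC, hD] at hc
  omega

theorem unb_box : ∀ a : Fin 9, ∀ b : Fin 5, ∀ c : Fin 9, ∀ d : Fin 5,
    ((a.val : ℤ) - 4) * ((a.val : ℤ) - 4) + 3 * (((b.val : ℤ) - 2) * ((b.val : ℤ) - 2)) +
      ((c.val : ℤ) - 4) * ((c.val : ℤ) - 4) + 3 * (((d.val : ℤ) - 2) * ((d.val : ℤ) - 2)) = 24 →
    ((a.val : ℤ) - 4) * ((b.val : ℤ) - 2) + ((c.val : ℤ) - 4) * ((d.val : ℤ) - 2) = 0 →
    (a.val + 8) + 64 * (b.val + 10) + 4096 * (c.val + 8) + 262144 * (d.val + 10) ∈ unb12 := by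
  decide +kernel

theorem unb_code (x y : Fin 6 → ZMod 12) (h : Unb x y) :
    unbK (kof (encV x)) (encV y) = true := by
  unfold unbK
  rw [relK_encV]
  apply isUnbCode_of_mem
  unfold Unb at h
  rw [Sx_el] at h
  obtain ⟨h1, h2⟩ := el_normSq _ _ _ _ h
  have hc := code_coords (fun j => (y j - x j).val) (fun j => ZMod.val_lt _)
  generalize (∑ j, cA (y j - x j).val) = A at *
  generalize (∑ j, cB (y j - x j).val) = B at *
  generalize (∑ j, cC (y j - x j).val) = C at *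
  generalize (∑ j, cD (y j - x j).val) = D at *
  have hA : -4 ≤ A ∧ A ≤ 4 := by
    constructor <;> nlinarith [mul_self_nonneg B, mul_self_nonneg C, mul_self_nonneg D]
  have hB : -2 ≤ B ∧ B ≤ 2 := by
    constructor <;> nlinarith [mul_self_nonneg A, mul_self_nonneg C, mul_self_nonneg D]
  have hC : -4 ≤ C ∧ C ≤ 4 := by
    constructor <;> nlinarith [mul_self_nonneg B, mul_self_nonneg A, mul_self_nonneg D]
  have hD : -2 ≤ D ∧ D ≤ 2 := by
    constructor <;> nlinarith [mul_self_nonneg A, mul_self_nonneg C, mul_self_nonneg B]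
  have key := unb_box ⟨(A + 4).toNat, by omega⟩ ⟨(B + 2).toNat, by omega⟩
    ⟨(C + 4).toNat, by omega⟩ ⟨(D + 2).toNat, by omega⟩
  simp only at key
  have eA : (((A + 4).toNat : ℕ) : ℤ) - 4 = A := by omega
  have eB : (((B + 2).toNat : ℕ) : ℤ) - 2 = B := by omega
  have eC : (((C + 4).toNat : ℕ) : ℤ) - 4 = C := by omega
  have eD : (((D + 2).toNat : ℕ) : ℤ) - 2 = D := by omega
  rw [eA, eB, eC, eD] at key
  have hmem := key h1 h2
  convert hmem using 1
  omega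

end Vale.Agent.Lib.P355.TR
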