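import Vale.Agent.Lib.P355.TR.Tables

namespace Vale.Agent.Lib.P355.TR

/-- Completeness of the enumeration `scan`. -/
theorem mem_scan (p : Nat → Bool) (x1 x2 x3 x4 x5 : Nat)
    (h1 : x1 < 12) (h2 : x2 < 12) (h3 : x3 < 12) (h4 : x4 < 12) (h5 : x5 < 12)
    (hp : p (532612 + rootCode x1 + rootCode x2 + rootCode x3 + rootCode x4 + rootCode x5) = true) :
    codeOf x1 x2 x3 x4 x5 ∈ scan p := by
  unfold scan
  refine List.mem_flatMap.mpr ⟨x1, mem_r12 x1 h1, ?_⟩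
  refine List.mem_flatMap.mpr ⟨x2, mem_r12 x2 h2, ?_⟩
  refine List.mem_flatMap.mpr ⟨x3, mem_r12 x3 h3, ?_⟩
  refine List.mem_flatMap.mpr ⟨x4, mem_r12 x4 h4, ?_⟩
  refine List.mem_filterMap.mpr ⟨x5, mem_r12 x5 h5, ?_⟩
  have e : Nat.add (Nat.add (Nat.add (Nat.add (Nat.add 532612 (rootOf x1)) (rootOf x2)) (rootOf x3))
      (rootOf x4)) (rootOf x5)
      = 532612 + rootCode x1 + rootCode x2 + rootCode x3 + rootCode x4 + rootCode x5 := by
    rw [rootOf_eq x1 h1, rootOf_eq x2 h2, rootOf_eq x3 h3, rootOf_eq x4 h4, rootOf_eq x5 h5]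
    rfl
  show (match p (Nat.add (Nat.add (Nat.add (Nat.add (Nat.add 532612 (rootOf x1)) (rootOf x2))
      (rootOf x3)) (rootOf x4)) (rootOf x5)) with
    | true => some (codeOf x1 x2 x3 x4 x5)
    | false => none) = some (codeOf x1 x2 x3 x4 x5)
  rw [e, hp]

end Vale.Agent.Lib.P355.TR
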