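import Vale.Agent.Lib.P355.TR.ScanO

namespace Vale.Agent.Lib.P355.TR

set_option maxRecDepth 100000 in
theorem scan_unb_eq : scan isUnbCode = ulist := by decide +kernel

end Vale.Agent.Lib.P355.TR
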