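import Vale.Agent.Lib.P355.TR.RepA

namespace Vale.Agent.Lib.P355.TR

set_option maxRecDepth 100000 in
theorem rep_207814656 : checkRep olist ulist 207814656 = true := by decide +kernel

set_option maxRecDepth 100000 in
theorem rep_308481024 : checkRep olist ulist 308481024 = true := by decide +kernel

set_option maxRecDepth 100000 in
theorem rep_311626848 : checkRep olist ulist 311626848 = true := by decide +kernel

set_option maxRecDepth 100000 in
theorem rep_344133696 : checkRep olist ulist 344133696 = true := by decide +kernel

end Vale.Agent.Lib.P355.TR
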