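import Vale.Agent.Lib.P355.TR.RepB

namespace Vale.Agent.Lib.P355.TR

set_option maxRecDepth 100000 in
theorem rep_241370112 : checkRep olist ulist 241370112 = true := by decide +kernel

set_option maxRecDepth 100000 in
theorem rep_274925568 : checkRep olist ulist 274925568 = true := by decide +kernel

set_option maxRecDepth 100000 in
theorem rep_342036480 : checkRep olist ulist 342036480 = true := by decide +kernel

set_option maxRecDepth 100000 in
theorem rep_375591936 : checkRep olist ulist 375591936 = true := by decide +kernel

set_option maxRecDepth 100000 in
theorem rep_242418720 : checkRep olist ulist 242418720 = true := by decide +kernel

set_option maxRecDepth 100000 in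
theorem rep_275974176 : checkRep olist ulist 275974176 = true := by decide +kernel

set_option maxRecDepth 100000 in
theorem rep_309529632 : checkRep olist ulist 309529632 = true := by decide +kernel

set_option maxRecDepth 100000 in
theorem rep_310546464 : checkRep olist ulist 310546464 = true := by decide +kernel

set_option maxRecDepth 100000 in
theorem rep_343085088 : checkRep olist ulist 343085088 = true := by decide +kernel

set_option maxRecDepth 100000 in
theorem rep_376640544 : checkRep olist ulist 376640544 = true := by decide +kernel

set_option maxRecDepth 100000 in
theorem rep_277022784 : checkRep olist ulist 277022784 = true := by decide +kernel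

set_option maxRecDepth 100000 in
theorem rep_310578240 : checkRep olist ulist 310578240 = true := by decide +kernel

set_option maxRecDepth 100000 in
theorem rep_377689152 : checkRep olist ulist 377689152 = true := by decide +kernel

set_option maxRecDepth 100000 in
theorem rep_345182304 : checkRep olist ulist 345182304 = true := by decide +kernel

set_option maxRecDepth 100000 in
theorem rep_377720928 : checkRep olist ulist 377720928 = true := by decide +kernel

set_option maxRecDepth 100000 in
theorem rep_378737760 : checkRep olist ulist 378737760 = true := by decide +kernel

set_option maxRecDepth 100000 in
theorem rep_346230912 : checkRep olist ulist 346230912 = true := by decide +kernel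

set_option maxRecDepth 100000 in
theorem rep_379786368 : checkRep olist ulist 379786368 = true := by decide +kernel

set_option maxRecDepth 100000 in
theorem rep_380834976 : checkRep olist ulist 380834976 = true := by decide +kernel

end Vale.Agent.Lib.P355.TR
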