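import Vale.Agent.Lib.P355.TR.RepC

namespace Vale.Agent.Lib.P355.TR

set_option maxRecDepth 100000 in
theorem sorted_reps_eq : olist.filter sortedB =
    [207814656, 241370112, 274925568, 308481024, 276959232, 342036480, 375591936, 242418720, 275974176, 309529632, 310546464, 343085088, 376640544, 277022784, 310578240, 344133696, 377689152, 311626848, 345182304, 377720928, 378737760, 346230912, 379786368, 380834976] := by decide +kernel

end Vale.Agent.Lib.P355.TR
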