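import Mathlib
import Vale.Agent.Lib.P355.TR.RepList
import Vale.Agent.Lib.P355.TR.RepA
import Vale.Agent.Lib.P355.TR.RepB
import Vale.Agent.Lib.P355.TR.RepC

namespace Vale.Agent.Lib.P355.TR

theorem rep_all : ∀ r ∈ olist.filter sortedB, checkRep olist ulist r = true := by
  rw [sorted_reps_eq]
  intro r hr
  fin_cases hr
  exacts [rep_207814656, rep_241370112, rep_274925568, rep_308481024, rep_276959232, rep_342036480, rep_375591936, rep_242418720, rep_275974176, rep_309529632, rep_310546464, rep_343085088, rep_376640544, rep_277022784, rep_310578240, rep_344133696, rep_377689152, rep_311626848, rep_345182304, rep_377720928, rep_378737760, rep_346230912, rep_379786368, rep_380834976]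

theorem not_small {l : List Nat} {u v : Nat} (hu : u ∈ l) (hv : v ∈ l) (hne : u ≠ v) :
    small l = false := by
  match l, hu, hv with
  | [], hu, _ => simp at hu
  | [a], hu, hv =>
    simp only [List.mem_singleton] at hu hv
    exact absurd (hu.trans hv.symm) hne
  | _ :: _ :: _, _, _ => rfl

theorem checkRep_sound (ol ul : List Nat) (r c2 c3 c4 u v : Nat)
    (hc2 : c2 ∈ ol) (hc3 : c3 ∈ ol) (hc4 : c4 ∈ ol) (hu : u ∈ ul) (hv : v ∈ ul)
    (o12 : orthK (kof r) c2 = true) (o13 : orthK (kof r) c3 = true)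
    (o14 : orthK (kof r) c4 = true) (o23 : orthK (kof c2) c3 = true)
    (o24 : orthK (kof c2) c4 = true) (o34 : orthK (kof c3) c4 = true)
    (u1 : unbK (kof r) u = true) (u2 : unbK (kof c2) u = true) (u3 : unbK (kof c3) u = true)
    (u4 : unbK (kof c4) u = true)
    (v1 : unbK (kof r) v = true) (v2 : unbK (kof c2) v = true) (v3 : unbK (kof c3) v = true)
    (v4 : unbK (kof c4) v = true)
    (uv : unbK (kof u) v = true) (hne : u ≠ v)
    (h : checkRep ol ul r = true) : False := by
  unfold checkRep at h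
  have hWu : u ∈ ul.filter (unbK (kof r)) := List.mem_filter.mpr ⟨hu, u1⟩
  have hWv : v ∈ ul.filter (unbK (kof r)) := List.mem_filter.mpr ⟨hv, v1⟩
  have hN2 : c2 ∈ ol.filter (orthK (kof r)) := List.mem_filter.mpr ⟨hc2, o12⟩
  have hN3 : c3 ∈ ol.filter (orthK (kof r)) := List.mem_filter.mpr ⟨hc3, o13⟩
  have hN4 : c4 ∈ ol.filter (orthK (kof r)) := List.mem_filter.mpr ⟨hc4, o14⟩
  have h2 := List.all_eq_true.mp h c2 hN2
  have hW2u : u ∈ (ul.filter (unbK (kof r))).filter (unbK (kof c2)) :=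
    List.mem_filter.mpr ⟨hWu, u2⟩
  have hW2v : v ∈ (ul.filter (unbK (kof r))).filter (unbK (kof c2)) :=
    List.mem_filter.mpr ⟨hWv, v2⟩
  have hs2 := not_small hW2u hW2v hne
  simp only [hs2] at h2
  have hN23 : c3 ∈ (ol.filter (orthK (kof r))).filter (orthK (kof c2)) :=
    List.mem_filter.mpr ⟨hN3, o23⟩
  have hN24 : c4 ∈ (ol.filter (orthK (kof r))).filter (orthK (kof c2)) :=
    List.mem_filter.mpr ⟨hN4, o24⟩
  have h3 := List.all_eq_true.mp h2 c3 hN23
  have hW3u : u ∈ ((ul.filter (unbK (kof r))).filter (unbK (kof c2))).filter (unbK (kof c3)) :=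
    List.mem_filter.mpr ⟨hW2u, u3⟩
  have hW3v : v ∈ ((ul.filter (unbK (kof r))).filter (unbK (kof c2))).filter (unbK (kof c3)) :=
    List.mem_filter.mpr ⟨hW2v, v3⟩
  have hs3 := not_small hW3u hW3v hne
  simp only [hs3] at h3
  have hN34 : c4 ∈ ((ol.filter (orthK (kof r))).filter (orthK (kof c2))).filter (orthK (kof c3)) :=
    List.mem_filter.mpr ⟨hN24, o34⟩
  have h4 := List.all_eq_true.mp h3 c4 hN34
  have hW4u : u ∈ (((ul.filter (unbK (kof r))).filter (unbK (kof c2))).filter
      (unbK (kof c3))).filter (unbK (kof c4)) := List.mem_filter.mpr ⟨hW3u, u4⟩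
  have hW4v : v ∈ (((ul.filter (unbK (kof r))).filter (unbK (kof c2))).filter
      (unbK (kof c3))).filter (unbK (kof c4)) := List.mem_filter.mpr ⟨hW3v, v4⟩
  have h5 := List.all_eq_true.mp (List.all_eq_true.mp h4 u hW4u) v hW4v
  rw [uv] at h5
  exact absurd h5 (by decide)

end Vale.Agent.Lib.P355.TR
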