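import Mathlib
import Vale.Agent.Lib.P355.TR.Bridge
import Vale.Agent.Lib.P355.TR.Sound
import Vale.Agent.Lib.P355.TR.ScanO
import Vale.Agent.Lib.P355.TR.ScanU
import Vale.Agent.Lib.P355.TR.ScanSound

namespace Vale.Agent.Lib.P355.TR

theorem encV_le (x : Fin 6 → ZMod 12) : encV x ≤ 415641996 := by
  unfold encV enc6
  have h0 := ZMod.val_lt (x 0)
  have h1 := ZMod.val_lt (x 1)
  have h2 := ZMod.val_lt (x 2)
  have h3 := ZMod.val_lt (x 3)
  have h4 := ZMod.val_lt (x 4)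
  have h5 := ZMod.val_lt (x 5)
  omega

theorem encV_codeOf (x : Fin 6 → ZMod 12) (h0 : x 0 = 0) :
    encV x = codeOf (x 1).val (x 2).val (x 3).val (x 4).val (x 5).val := by
  unfold encV enc6
  rw [h0, codeOf_eq, ZMod.val_zero]
  omega

theorem sum_rootCode_zero (x : Fin 6 → ZMod 12) (h0 : x 0 = 0) :
    ∑ j, rootCode (x j - (0 : Fin 6 → ZMod 12) j).val =
      532612 + rootCode (x 1).val + rootCode (x 2).val + rootCode (x 3).val + rootCode (x 4).val
        + rootCode (x 5).val := by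
  simp only [Fin.sum_univ_six, Pi.zero_apply, sub_zero, h0, ZMod.val_zero]
  rfl

theorem mem_olist (x : Fin 6 → ZMod 12) (h0 : x 0 = 0) (h : Orth 0 x) : encV x ∈ olist := by
  have h1 := orth_code 0 x h
  unfold orthK at h1
  rw [relK_encV, sum_rootCode_zero x h0] at h1
  rw [encV_codeOf x h0, ← scan_zero_eq]
  exact mem_scan isZeroCode _ _ _ _ _ (ZMod.val_lt _) (ZMod.val_lt _) (ZMod.val_lt _)
    (ZMod.val_lt _) (ZMod.val_lt _) h1

theorem mem_ulist (x : Fin 6 → ZMod 12) (h0 : x 0 = 0) (h : Unb 0 x) : encV x ∈ ulist := by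
  have h1 := unb_code 0 x h
  unfold unbK at h1
  rw [relK_encV, sum_rootCode_zero x h0] at h1
  rw [encV_codeOf x h0, ← scan_unb_eq]
  exact mem_scan isUnbCode _ _ _ _ _ (ZMod.val_lt _) (ZMod.val_lt _) (ZMod.val_lt _)
    (ZMod.val_lt _) (ZMod.val_lt _) h1

theorem sortedB_encV (x : Fin 6 → ZMod 12) (h0 : x 0 = 0)
    (hs : (x 1).val ≤ (x 2).val ∧ (x 2).val ≤ (x 3).val ∧ (x 3).val ≤ (x 4).val ∧
      (x 4).val ≤ (x 5).val) : sortedB (encV x) = true := by
  have b1 := ZMod.val_lt (x 1)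
  have b2 := ZMod.val_lt (x 2)
  have b3 := ZMod.val_lt (x 3)
  have b4 := ZMod.val_lt (x 4)
  have b5 := ZMod.val_lt (x 5)
  have e := encV_codeOf x h0
  rw [codeOf_eq] at e
  have d1 : encV x / 32 % 32 = (x 1).val := by omega
  have d2 : encV x / 1024 % 32 = (x 2).val := by omega
  have d3 : encV x / 32768 % 32 = (x 3).val := by omega
  have d4 : encV x / 1048576 % 32 = (x 4).val := by omega
  have d5 : encV x / 33554432 = (x 5).val := by omega
  rw [sortedB_eq, d1, d2, d3, d4, d5]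
  simp only [Nat.ble_eq, Bool.and_eq_true]
  exact hs

/-- There is no normalized configuration of five pairwise orthogonal vectors (the first one
constant) and two mutually unbiased vectors unbiased to all five. -/
theorem no_normal_config (c1 c2 c3 c4 u v : Fin 6 → ZMod 12)
    (h1 : c1 0 = 0) (h2 : c2 0 = 0) (h3 : c3 0 = 0) (h4 : c4 0 = 0) (hu : u 0 = 0) (hv : v 0 = 0)
    (hs : (c1 1).val ≤ (c1 2).val ∧ (c1 2).val ≤ (c1 3).val ∧ (c1 3).val ≤ (c1 4).val ∧
      (c1 4).val ≤ (c1 5).val)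
    (o01 : Orth 0 c1) (o02 : Orth 0 c2) (o03 : Orth 0 c3) (o04 : Orth 0 c4)
    (o12 : Orth c1 c2) (o13 : Orth c1 c3) (o14 : Orth c1 c4) (o23 : Orth c2 c3)
    (o24 : Orth c2 c4) (o34 : Orth c3 c4)
    (u0 : Unb 0 u) (u1 : Unb c1 u) (u2 : Unb c2 u) (u3 : Unb c3 u) (u4 : Unb c4 u)
    (v0 : Unb 0 v) (v1 : Unb c1 v) (v2 : Unb c2 v) (v3 : Unb c3 v) (v4 : Unb c4 v)
    (uv : Unb u v) : False := by
  have hr : encV c1 ∈ olist.filter sortedB :=
    List.mem_filter.mpr ⟨mem_olist c1 h1 o01, sortedB_encV c1 h1 hs⟩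
  have hrep := rep_all _ hr
  have huv := unb_code u v uv
  have hne : encV u ≠ encV v := by
    intro e
    rw [e, unbK_self _ (encV_le v)] at huv
    exact absurd huv (by decide)
  exact checkRep_sound olist ulist (encV c1) (encV c2) (encV c3) (encV c4) (encV u) (encV v)
    (mem_olist c2 h2 o02) (mem_olist c3 h3 o03) (mem_olist c4 h4 o04) (mem_ulist u hu u0)
    (mem_ulist v hv v0)
    (orth_code _ _ o12) (orth_code _ _ o13) (orth_code _ _ o14) (orth_code _ _ o23)
    (orth_code _ _ o24) (orth_code _ _ o34)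
    (unb_code _ _ u1) (unb_code _ _ u2) (unb_code _ _ u3) (unb_code _ _ u4)
    (unb_code _ _ v1) (unb_code _ _ v2) (unb_code _ _ v3) (unb_code _ _ v4)
    huv hne hrep

end Vale.Agent.Lib.P355.TR
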