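import Mathlib
import Vale.Agent.Lib.P355.TR.Normal

namespace Vale.Agent.Lib.P355.TR

/-- Normalization of an exponent vector: translate by `t`, permute the coordinates by `σ`,
and subtract the first coordinate. -/
def nrm (t : Fin 6 → ZMod 12) (σ : Equiv.Perm (Fin 6)) (x : Fin 6 → ZMod 12) : Fin 6 → ZMod 12 :=
  fun j => (x (σ j) - t (σ j)) - (x (σ 0) - t (σ 0))

theorem nrm_zero (t : Fin 6 → ZMod 12) (σ : Equiv.Perm (Fin 6)) (x : Fin 6 → ZMod 12) :
    nrm t σ x 0 = 0 := by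
  unfold nrm
  exact sub_self _

theorem nrm_self (t : Fin 6 → ZMod 12) (σ : Equiv.Perm (Fin 6)) : nrm t σ t = 0 := by
  funext j
  simp [nrm]

theorem Sx_nrm (t : Fin 6 → ZMod 12) (σ : Equiv.Perm (Fin 6)) (x y : Fin 6 → ZMod 12) :
    Sx (nrm t σ x) (nrm t σ y) = chi (x (σ 0) - y (σ 0)) * Sx x y := by
  unfold Sx
  rw [Finset.mul_sum, ← Equiv.sum_comp σ (fun j => chi (x (σ 0) - y (σ 0)) * chi (y j - x j))]
  refine Finset.sum_congr rfl fun j _ => ?_
  rw [← chi_add]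
  congr 1
  unfold nrm
  ring

theorem Orth_nrm (t : Fin 6 → ZMod 12) (σ : Equiv.Perm (Fin 6)) {x y : Fin 6 → ZMod 12}
    (h : Orth x y) : Orth (nrm t σ x) (nrm t σ y) := by
  unfold Orth at *
  rw [Sx_nrm, h, mul_zero]

theorem Unb_nrm (t : Fin 6 → ZMod 12) (σ : Equiv.Perm (Fin 6)) {x y : Fin 6 → ZMod 12}
    (h : Unb x y) : Unb (nrm t σ x) (nrm t σ y) := by
  unfold Unb at *
  rw [Sx_nrm, map_mul, normSq_chi, h, one_mul]

theorem exists_sort (w : Fin 6 → ZMod 12) : ∃ σ : Equiv.Perm (Fin 6), σ 0 = 0 ∧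
    ∀ i j : Fin 6, i ≠ 0 → i ≤ j → (w (σ i) - w 0).val ≤ (w (σ j) - w 0).val := by
  classical
  let f : Fin 6 → ℕ := fun j => if j = 0 then 0 else (w j - w 0).val + 1
  have hm : Monotone (f ∘ Tuple.sort f) := Tuple.monotone_sort f
  have h0 : Tuple.sort f 0 = 0 := by
    by_contra hne
    have h1 : f (Tuple.sort f 0) ≤ f (Tuple.sort f ((Tuple.sort f).symm 0)) := hm (Fin.zero_le _)
    rw [Equiv.apply_symm_apply] at h1
    have e1 : f (Tuple.sort f 0) = (w (Tuple.sort f 0) - w 0).val + 1 := if_neg hne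
    have e2 : f 0 = 0 := if_pos rfl
    omega
  refine ⟨Tuple.sort f, h0, fun i j hi hij => ?_⟩
  have hi' : Tuple.sort f i ≠ 0 := fun h => hi ((Tuple.sort f).injective (h.trans h0.symm))
  have hj : j ≠ 0 := by
    rintro rfl
    exact hi (Fin.le_zero_iff.mp hij)
  have hj' : Tuple.sort f j ≠ 0 := fun h => hj ((Tuple.sort f).injective (h.trans h0.symm))
  have h1 : f (Tuple.sort f i) ≤ f (Tuple.sort f j) := hm hij
  have e1 : f (Tuple.sort f i) = (w (Tuple.sort f i) - w 0).val + 1 := if_neg hi'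
  have e2 : f (Tuple.sort f j) = (w (Tuple.sort f j) - w 0).val + 1 := if_neg hj'
  omega

/-- No five pairwise orthogonal vectors of twelfth roots of unity admit two mutually unbiased
vectors of twelfth roots of unity that are unbiased to all five. -/
theorem no_config (c : Fin 5 → Fin 6 → ZMod 12) (u v : Fin 6 → ZMod 12)
    (ho : ∀ a b, a ≠ b → Orth (c a) (c b))
    (hu : ∀ a, Unb (c a) u) (hv : ∀ a, Unb (c a) v) (huv : Unb u v) : False := by
  obtain ⟨σ, h0, hs⟩ := exists_sort (fun j => c 1 j - c 0 j)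
  have z : ∀ {y : Fin 6 → ZMod 12}, Orth (c 0) y → Orth 0 (nrm (c 0) σ y) := by
    intro y h
    have := Orth_nrm (c 0) σ h
    rwa [nrm_self] at this
  have zu : ∀ {y : Fin 6 → ZMod 12}, Unb (c 0) y → Unb 0 (nrm (c 0) σ y) := by
    intro y h
    have := Unb_nrm (c 0) σ h
    rwa [nrm_self] at this
  have hsort : ∀ i j : Fin 6, i ≠ 0 → i ≤ j →
      (nrm (c 0) σ (c 1) i).val ≤ (nrm (c 0) σ (c 1) j).val := by
    intro i j hi hij
    have := hs i j hi hij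
    simp only [nrm, h0]
    exact this
  exact no_normal_config (nrm (c 0) σ (c 1)) (nrm (c 0) σ (c 2)) (nrm (c 0) σ (c 3))
    (nrm (c 0) σ (c 4)) (nrm (c 0) σ u) (nrm (c 0) σ v)
    (nrm_zero _ _ _) (nrm_zero _ _ _) (nrm_zero _ _ _) (nrm_zero _ _ _) (nrm_zero _ _ _)
    (nrm_zero _ _ _)
    ⟨hsort 1 2 (by decide) (by decide), hsort 2 3 (by decide) (by decide),
      hsort 3 4 (by decide) (by decide), hsort 4 5 (by decide) (by decide)⟩
    (z (ho 0 1 (by decide))) (z (ho 0 2 (by decide))) (z (ho 0 3 (by decide)))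
    (z (ho 0 4 (by decide)))
    (Orth_nrm _ _ (ho 1 2 (by decide))) (Orth_nrm _ _ (ho 1 3 (by decide)))
    (Orth_nrm _ _ (ho 1 4 (by decide))) (Orth_nrm _ _ (ho 2 3 (by decide)))
    (Orth_nrm _ _ (ho 2 4 (by decide))) (Orth_nrm _ _ (ho 3 4 (by decide)))
    (zu (hu 0)) (Unb_nrm _ _ (hu 1)) (Unb_nrm _ _ (hu 2)) (Unb_nrm _ _ (hu 3))
    (Unb_nrm _ _ (hu 4))
    (zu (hv 0)) (Unb_nrm _ _ (hv 1)) (Unb_nrm _ _ (hv 2)) (Unb_nrm _ _ (hv 3))
    (Unb_nrm _ _ (hv 4))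
    (Unb_nrm _ _ huv)

end Vale.Agent.Lib.P355.TR
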