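import Mathlib
import Vale.Agent.Lib.P355.Defs
import Vale.Agent.Lib.P355.FieldObstructionProof
import Vale.Agent.Lib.P355.TR.Normalize

namespace Vale.Agent.Lib.P355.TR

open Vale.Agent.Lib.P355

theorem exists_chi (w : ℂ) (h : w ^ 12 = 1) : ∃ a : ZMod 12, w = chi a := by
  obtain ⟨i, hi, e⟩ := zeta_primitive.eq_pow_of_pow_eq_one h
  refine ⟨(i : ZMod 12), ?_⟩
  unfold chi
  rw [ZMod.val_natCast_of_lt hi, e]

theorem conj_chi_mul (a b : ZMod 12) : (starRingEnd ℂ) (chi a) * chi b = chi (b - a) := by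
  have h1 : chi b = chi (b - a) * chi a := by
    rw [← chi_add, sub_add_cancel]
  have h2 : (starRingEnd ℂ) (chi a) * chi a = 1 := by
    rw [← Complex.normSq_eq_conj_mul_self, normSq_chi]
    simp
  rw [h1, mul_comm (chi (b - a)), ← mul_assoc, h2, one_mul]

theorem exists_expo (w : EuclideanSpace ℂ (Fin 6)) (h0 : w.ofLp 0 ≠ 0)
    (h : ∀ a b, (w.ofLp a / w.ofLp b) ^ 12 = 1) :
    ∃ x : Fin 6 → ZMod 12, ∀ a, w.ofLp a = w.ofLp 0 * chi (x a) := by
  choose x hx using fun a => exists_chi _ (h a 0)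
  refine ⟨x, fun a => ?_⟩
  rw [← hx a]
  field_simp

theorem inner_eq_Sx (w w' : EuclideanSpace ℂ (Fin 6)) (x y : Fin 6 → ZMod 12)
    (h0 : w.ofLp 0 ≠ 0) (h0' : w'.ofLp 0 ≠ 0)
    (hx : ∀ a, w.ofLp a = w.ofLp 0 * chi (x a)) (hy : ∀ a, w'.ofLp a = w'.ofLp 0 * chi (y a)) :
    inner ℂ w w' = (starRingEnd ℂ) (w.ofLp 0) * w'.ofLp 0 * Sx x y := by
  rw [inner_factor w w' h0 h0']
  congr 1
  unfold Sx
  refine Finset.sum_congr rfl fun a _ => ?_
  rw [hx a, hy a, mul_div_cancel_left₀ _ h0, mul_div_cancel_left₀ _ h0', conj_chi_mul]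

theorem Orth_of (w w' : EuclideanSpace ℂ (Fin 6)) (x y : Fin 6 → ZMod 12)
    (h0 : w.ofLp 0 ≠ 0) (h0' : w'.ofLp 0 ≠ 0)
    (hx : ∀ a, w.ofLp a = w.ofLp 0 * chi (x a)) (hy : ∀ a, w'.ofLp a = w'.ofLp 0 * chi (y a))
    (h : inner ℂ w w' = 0) : Orth x y := by
  rw [inner_eq_Sx w w' x y h0 h0' hx hy] at h
  have hc : (starRingEnd ℂ) (w.ofLp 0) ≠ 0 := by
    simpa using h0
  rcases mul_eq_zero.mp h with h1 | h1
  · rcases mul_eq_zero.mp h1 with h2 | h2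
    · exact absurd h2 hc
    · exact absurd h2 h0'
  · exact h1

theorem Unb_of (w w' : EuclideanSpace ℂ (Fin 6)) (x y : Fin 6 → ZMod 12)
    (n : ‖w.ofLp 0‖ ^ 2 = 1 / 6) (n' : ‖w'.ofLp 0‖ ^ 2 = 1 / 6)
    (hx : ∀ a, w.ofLp a = w.ofLp 0 * chi (x a)) (hy : ∀ a, w'.ofLp a = w'.ofLp 0 * chi (y a))
    (h : ‖inner ℂ w w'‖ ^ 2 = 1 / 6) : Unb x y := by
  have h0 : w.ofLp 0 ≠ 0 := by
    intro e
    rw [e] at n
    norm_num at n
  have h0' : w'.ofLp 0 ≠ 0 := by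
    intro e
    rw [e] at n'
    norm_num at n'
  rw [inner_eq_Sx w w' x y h0 h0' hx hy, norm_mul, norm_mul, mul_pow, mul_pow, RCLike.norm_conj,
    n, n'] at h
  unfold Unb
  rw [Complex.normSq_eq_norm_sq]
  linarith

/-- A family of pairwise mutually unbiased bases of `ℂ^6` containing the standard basis, all of
whose other members have twelfth roots of unity as coordinate ratios, has at most three
members. -/
theorem twelfthRoots {ι : Type*} (B : ι → OrthonormalBasis (Fin 6) ℂ (EuclideanSpace ℂ (Fin 6)))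
    (hMU : ∀ i j, i ≠ j → MutuallyUnbiased (B i) (B j))
    (i₀ : ι) (hstd : B i₀ = EuclideanSpace.basisFun (Fin 6) ℂ)
    (hR : ∀ i, i ≠ i₀ → ∀ k a b, ((B i k).ofLp a / (B i k).ofLp b) ^ 12 = 1) :
    ∀ i j l, i ≠ i₀ → j ≠ i₀ → l ≠ i₀ → i = j ∨ i = l ∨ j = l := by
  intro i j l hi hj hl
  by_contra hcon
  simp only [not_or] at hcon
  obtain ⟨hij, hil, hjl⟩ := hcon
  have hn : ∀ m, m ≠ i₀ → ∀ k, ‖(B m k).ofLp 0‖ ^ 2 = 1 / 6 := by
    intro m hm k
    have h1 := hMU i₀ m (Ne.symm hm)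
    rw [hstd] at h1
    exact coord_normSq_of_unbiased_std (B m) h1 k 0
  have hnz : ∀ m, m ≠ i₀ → ∀ k, (B m k).ofLp 0 ≠ 0 := by
    intro m hm k e
    have := hn m hm k
    rw [e] at this
    norm_num at this
  have hex : ∀ m, m ≠ i₀ → ∀ k, ∃ x : Fin 6 → ZMod 12,
      ∀ a, (B m k).ofLp a = (B m k).ofLp 0 * chi (x a) :=
    fun m hm k => exists_expo (B m k) (hnz m hm k) (hR m hm k)
  choose! X hX using hex
  refine no_config (fun a : Fin 5 => X i a.castSucc) (X j 0) (X l 0) ?_ ?_ ?_ ?_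
  · intro a b hab
    refine Orth_of (B i a.castSucc) (B i b.castSucc) _ _ (hnz i hi _) (hnz i hi _)
      (hX i hi _) (hX i hi _) ?_
    have hne : a.castSucc ≠ b.castSucc := fun e => hab (Fin.castSucc_injective _ e)
    exact (B i).orthonormal.2 hne
  · intro a
    exact Unb_of (B i a.castSucc) (B j 0) _ _ (hn i hi _) (hn j hj _) (hX i hi _) (hX j hj _)
      (hMU i j hij _ _)
  · intro a
    exact Unb_of (B i a.castSucc) (B l 0) _ _ (hn i hi _) (hn l hl _) (hX i hi _) (hX l hl _)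
      (hMU i l hil _ _)
  · exact Unb_of (B j 0) (B l 0) _ _ (hn j hj _) (hn l hl _) (hX j hj _) (hX l hl _)
      (hMU j l hjl _ _)

end Vale.Agent.Lib.P355.TR
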